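import Vale.Agent.Lib.P249.helper53.Cube

/-!
# Block inequality for the grid lower bound (helper25, P249)

`pl_block`: on a block of `M` bits, if
`g a ≤ f b + lam * H * (H - 1) + β * H` with `H = hammingDist a b`, `lam * M ≤ 1/5`, then
`(∑ a, exp (g a)) * (∑ b, exp (- f b)) ≤ 4 ^ M * exp (Phi lam M β)`,
`Phi lam M β = M β^2/2 + lam^2 M^2 β + lam^4 M^3/2`.
The cost family is closed under splitting off one bit (`β ↦ β + 2 lam`), so the induction
of `pl_cube` applies with the same two-point inequality.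
-/

namespace Vale.Agent.Lib.P249.Grid

open Finset

/-- The exponent in the block inequality. -/
noncomputable def Phi (lam : ℝ) (M : ℕ) (β : ℝ) : ℝ :=
  M * β ^ 2 / 2 + lam ^ 2 * M ^ 2 * β + lam ^ 4 * M ^ 3 / 2

theorem two_exp_le (L : ℝ) : 2 + Real.exp L + Real.exp (-L) ≤ 4 * Real.exp (L ^ 2 / 4) := by
  have h1 : Real.cosh (L / 2) ≤ Real.exp ((L / 2) ^ 2 / 2) := Real.cosh_le_exp_half_sq _
  have h2 : 2 + Real.exp L + Real.exp (-L) = 4 * Real.cosh (L / 2) ^ 2 := by
    rw [Real.cosh_eq]
    have e1 : Real.exp L = Real.exp (L / 2) * Real.exp (L / 2) := by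
      rw [← Real.exp_add]; ring_nf
    have e2 : Real.exp (-L) = Real.exp (-(L / 2)) * Real.exp (-(L / 2)) := by
      rw [← Real.exp_add]; ring_nf
    have e3 : Real.exp (L / 2) * Real.exp (-(L / 2)) = 1 := by
      rw [← Real.exp_add]; simp
    rw [e1, e2]
    nlinarith [e3]
  have h3 : Real.cosh (L / 2) ^ 2 ≤ Real.exp (L ^ 2 / 4) := by
    have hc0 : 0 ≤ Real.cosh (L / 2) := (Real.cosh_pos _).le
    calc Real.cosh (L / 2) ^ 2 ≤ Real.exp ((L / 2) ^ 2 / 2) ^ 2 := by gcongr
      _ = Real.exp (L ^ 2 / 4) := by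
        rw [← Real.exp_nat_mul]; congr 1; push_cast; ring
  linarith

theorem Phi_diff (lam β : ℝ) (M : ℕ) :
    Phi lam M (β + 2 * lam) - Phi lam M β
      = 2 * lam * M * β + 2 * lam ^ 2 * M + 2 * lam ^ 3 * M ^ 2 := by
  unfold Phi
  ring

theorem Phi_step (lam β : ℝ) (M : ℕ) (hlam : 0 ≤ lam) (hβ : 0 ≤ β) (hx : lam * M ≤ 1 / 5) :
    Phi lam M β + (β + Phi lam M (β + 2 * lam) - Phi lam M β) ^ 2 / 4 ≤ Phi lam (M + 1) β := by
  have hM0 : (0 : ℝ) ≤ M := Nat.cast_nonneg M
  have hx0 : 0 ≤ lam * M := mul_nonneg hlam hM0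
  have e : β + Phi lam M (β + 2 * lam) - Phi lam M β
      = β * (1 + 2 * (lam * M)) + 2 * lam * (lam * M) * (1 + lam * M) := by
    have := Phi_diff lam β M
    linarith [this, show 2 * lam * M * β + 2 * lam ^ 2 * M + 2 * lam ^ 3 * M ^ 2
      = β * (2 * (lam * M)) + 2 * lam * (lam * M) * (1 + lam * M) by ring]
  rw [e]
  have key : Phi lam (M + 1) β - Phi lam M β
      - (β * (1 + 2 * (lam * M)) + 2 * lam * (lam * M) * (1 + lam * M)) ^ 2 / 4
      = β ^ 2 * (1 / 2 - (1 + 2 * (lam * M)) ^ 2 / 4)
        + β * (lam * (lam * M) * (2 - (1 + lam * M) * (1 + 2 * (lam * M))) + lam ^ 2)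
        + lam ^ 2 * (lam * M) ^ 2 * (3 / 2 - (1 + lam * M) ^ 2)
        + (3 * lam ^ 3 * (lam * M) + lam ^ 4) / 2 := by
    unfold Phi
    push_cast
    ring
  have t1 : 0 ≤ β ^ 2 * (1 / 2 - (1 + 2 * (lam * M)) ^ 2 / 4) := by
    apply mul_nonneg (sq_nonneg _)
    nlinarith
  have t2 : 0 ≤ β * (lam * (lam * M) * (2 - (1 + lam * M) * (1 + 2 * (lam * M))) + lam ^ 2) := by
    apply mul_nonneg hβ
    have h1 : 0 ≤ 2 - (1 + lam * M) * (1 + 2 * (lam * M)) := by nlinarith
    have h2 : 0 ≤ lam * (lam * M) := mul_nonneg hlam hx0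
    have h3 : 0 ≤ lam * (lam * M) * (2 - (1 + lam * M) * (1 + 2 * (lam * M))) := mul_nonneg h2 h1
    nlinarith [sq_nonneg lam]
  have t3 : 0 ≤ lam ^ 2 * (lam * M) ^ 2 * (3 / 2 - (1 + lam * M) ^ 2) := by
    apply mul_nonneg (by positivity)
    nlinarith
  have t4 : 0 ≤ (3 * lam ^ 3 * (lam * M) + lam ^ 4) / 2 := by positivity
  linarith

/-- Block inequality (Talagrand-type induction with a quadratic Hamming cost). -/
theorem pl_block (lam : ℝ) (hlam : 0 ≤ lam) : ∀ (M : ℕ), lam * M ≤ 1 / 5 → ∀ (β : ℝ), 0 ≤ β →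
    ∀ (f g : (Fin M → Bool) → ℝ),
    (∀ a b, g a ≤ f b + lam * (hammingDist a b : ℝ) * ((hammingDist a b : ℝ) - 1)
        + β * (hammingDist a b : ℝ)) →
    (∑ a, Real.exp (g a)) * (∑ b, Real.exp (-f b)) ≤ 4 ^ M * Real.exp (Phi lam M β) := by
  intro M
  induction M with
  | zero =>
    intro _ β _ f g h
    have hu : (Finset.univ : Finset (Fin 0 → Bool)) = {fun i => i.elim0} := by
      ext x
      simp only [Finset.mem_univ, Finset.mem_singleton, true_iff]
      exact Subsingleton.elim _ _
    rw [hu, Finset.sum_singleton, Finset.sum_singleton]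
    have h0 := h (fun i => i.elim0) (fun i => i.elim0)
    simp only [hammingDist_self, Nat.cast_zero, mul_zero, add_zero, zero_mul] at h0
    have hPhi : Phi lam 0 β = 0 := by
      unfold Phi
      simp
    rw [← Real.exp_add, hPhi]
    simp only [pow_zero, Real.exp_zero, one_mul]
    rw [← Real.exp_zero]
    apply Real.exp_le_exp.mpr
    linarith
  | succ M ih =>
    intro hM β hβ f g h
    have hM0 : (0 : ℝ) ≤ M := Nat.cast_nonneg M
    have hM' : lam * (M : ℝ) ≤ 1 / 5 := by
      have h1 : lam * (M : ℝ) ≤ lam * ((M + 1 : ℕ) : ℝ) := by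
        apply mul_le_mul_of_nonneg_left _ hlam
        push_cast
        linarith
      linarith
    have split : ∀ F : (Fin (M + 1) → Bool) → ℝ,
        ∑ a, F a = ∑ a : Fin M → Bool, F (Fin.cons false a)
          + ∑ a : Fin M → Bool, F (Fin.cons true a) := by
      intro F
      rw [← (Fin.consEquiv (fun _ : Fin (M + 1) => Bool)).sum_comp F, Fintype.sum_prod_type]
      simp only [Fin.consEquiv, Equiv.coe_fn_mk, Fintype.sum_bool]
      exact add_comm _ _
    rw [split, split]
    set A0 := ∑ a : Fin M → Bool, Real.exp (g (Fin.cons false a)) with hA0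
    set A1 := ∑ a : Fin M → Bool, Real.exp (g (Fin.cons true a)) with hA1
    set B0 := ∑ b : Fin M → Bool, Real.exp (-f (Fin.cons false b)) with hB0
    set B1 := ∑ b : Fin M → Bool, Real.exp (-f (Fin.cons true b)) with hB1
    set N := (4 : ℝ) ^ M * Real.exp (Phi lam M β) with hN
    set L := β + Phi lam M (β + 2 * lam) - Phi lam M β with hL
    have hL0 : 0 ≤ L := by
      have e := Phi_diff lam β M
      have : 0 ≤ 2 * lam * M * β + 2 * lam ^ 2 * M + 2 * lam ^ 3 * M ^ 2 := by positivity
      rw [hL]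
      linarith
    have hA0pos : 0 ≤ A0 := Finset.sum_nonneg (fun _ _ => (Real.exp_pos _).le)
    have hA1pos : 0 ≤ A1 := Finset.sum_nonneg (fun _ _ => (Real.exp_pos _).le)
    have hB0pos : 0 < B0 := Finset.sum_pos (fun _ _ => Real.exp_pos _) Finset.univ_nonempty
    have hB1pos : 0 < B1 := Finset.sum_pos (fun _ _ => Real.exp_pos _) Finset.univ_nonempty
    have hNpos : 0 ≤ N := by positivity
    have same : ∀ x : Bool, (∑ a : Fin M → Bool, Real.exp (g (Fin.cons x a))) *
        (∑ b : Fin M → Bool, Real.exp (-f (Fin.cons x b))) ≤ N := by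
      intro x
      apply ih hM' β hβ (fun b => f (Fin.cons x b)) (fun a => g (Fin.cons x a))
      intro a b
      have h1 := h (Fin.cons x a) (Fin.cons x b)
      rw [H53.hammingDist_cons] at h1
      simpa using h1
    have diff : ∀ x y : Bool, x ≠ y → (∑ a : Fin M → Bool, Real.exp (g (Fin.cons x a))) *
        (∑ b : Fin M → Bool, Real.exp (-f (Fin.cons y b))) ≤ Real.exp L * N := by
      intro x y hxy
      have h2 := ih hM' (β + 2 * lam) (by linarith) (fun b => f (Fin.cons y b))
        (fun a => g (Fin.cons x a) - β) (by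
          intro a b
          have h1 := h (Fin.cons x a) (Fin.cons y b)
          rw [H53.hammingDist_cons] at h1
          simp only [hxy, ne_eq, not_false_eq_true, if_true] at h1
          have e : lam * (1 + (hammingDist a b : ℝ)) * (1 + (hammingDist a b : ℝ) - 1)
              + β * (1 + (hammingDist a b : ℝ))
              = lam * (hammingDist a b : ℝ) * ((hammingDist a b : ℝ) - 1)
                + (β + 2 * lam) * (hammingDist a b : ℝ) + β := by ring
          linarith)
      have e : ∀ a : Fin M → Bool, Real.exp (g (Fin.cons x a) - β)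
          = Real.exp (g (Fin.cons x a)) * Real.exp (-β) := by
        intro a
        rw [← Real.exp_add]
        congr 1
      simp only [e] at h2
      rw [← Finset.sum_mul] at h2
      have hpos : 0 < Real.exp β := Real.exp_pos β
      have e2 : Real.exp (-β) * Real.exp β = 1 := by
        rw [← Real.exp_add]
        simp
      have e3 : Real.exp L * N = Real.exp β * ((4 : ℝ) ^ M * Real.exp (Phi lam M (β + 2 * lam))) := by
        rw [hN, hL]
        have : Real.exp (β + Phi lam M (β + 2 * lam) - Phi lam M β) * Real.exp (Phi lam M β)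
            = Real.exp β * Real.exp (Phi lam M (β + 2 * lam)) := by
          rw [← Real.exp_add, ← Real.exp_add]
          congr 1
          ring
        calc Real.exp (β + Phi lam M (β + 2 * lam) - Phi lam M β) * ((4 : ℝ) ^ M * Real.exp (Phi lam M β))
            = (4 : ℝ) ^ M * (Real.exp (β + Phi lam M (β + 2 * lam) - Phi lam M β)
                * Real.exp (Phi lam M β)) := by ring
          _ = (4 : ℝ) ^ M * (Real.exp β * Real.exp (Phi lam M (β + 2 * lam))) := by rw [this]
          _ = Real.exp β * ((4 : ℝ) ^ M * Real.exp (Phi lam M (β + 2 * lam))) := by ring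
      rw [e3]
      calc (∑ a : Fin M → Bool, Real.exp (g (Fin.cons x a))) *
            (∑ b : Fin M → Bool, Real.exp (-f (Fin.cons y b)))
          = Real.exp β * ((∑ a : Fin M → Bool, Real.exp (g (Fin.cons x a))) * Real.exp (-β) *
            (∑ b : Fin M → Bool, Real.exp (-f (Fin.cons y b)))) := by
            have : Real.exp β * ((∑ a : Fin M → Bool, Real.exp (g (Fin.cons x a))) * Real.exp (-β) *
                (∑ b : Fin M → Bool, Real.exp (-f (Fin.cons y b))))
                = (∑ a : Fin M → Bool, Real.exp (g (Fin.cons x a))) *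
                  (∑ b : Fin M → Bool, Real.exp (-f (Fin.cons y b))) *
                  (Real.exp (-β) * Real.exp β) := by ring
            rw [this, e2, mul_one]
        _ ≤ Real.exp β * ((4 : ℝ) ^ M * Real.exp (Phi lam M (β + 2 * lam))) :=
            mul_le_mul_of_nonneg_left h2 hpos.le
    have h00 := same false
    have h11 := same true
    have h01 := diff false true (by decide)
    have h10 := diff true false (by decide)
    have tp := H53.two_point L A0 A1 B0 B1 N hL0 hA0pos hA1pos hB0pos hB1pos hNpos h00 h11 h01 h10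
    have hc := two_exp_le L
    have hstep := Phi_step lam β M hlam hβ hM'
    calc (A0 + A1) * (B0 + B1) ≤ N * (2 + Real.exp L + Real.exp (-L)) := tp
      _ ≤ N * (4 * Real.exp (L ^ 2 / 4)) := by gcongr
      _ = 4 ^ (M + 1) * Real.exp (Phi lam M β + L ^ 2 / 4) := by
        rw [hN, Real.exp_add]
        ring
      _ ≤ 4 ^ (M + 1) * Real.exp (Phi lam (M + 1) β) := by
        apply mul_le_mul_of_nonneg_left _ (by positivity)
        apply Real.exp_le_exp.mpr
        rw [hL]
        exact hstep

end Vale.Agent.Lib.P249.Grid
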