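import Vale.Agent.Lib.P249.helper53.Cube

/-!
# Concentration of square-root-Hamming-Lipschitz functions on the cube (helper25, P249)

`conc_cube`: if `|h a - h b| ≤ Lam * sqrt (hammingDist a b)` on `Fin K → Bool`, then
`∑ a, ∑ b, |h a - h b| ^ q ≤ 4 ^ K * 2 ^ (q + 2) * Lam ^ q * (q * K) ^ (q / 4)`.

Proof without a median: `pl_cube` applied to `f = t * h`, `g = t * h - t^2 Lam^2 / (4 L)`
bounds the two-point Laplace transform `∑ a, ∑ b, exp (t * (h a - h b))`, and
`|r| ^ q ≤ (q / (e t)) ^ q * (exp (t r) + exp (- t r))` turns this into a moment bound.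
-/

namespace Vale.Agent.Lib.P249.H25

open Finset

/-- A power is bounded by exponentials: `|r|^q ≤ (q/(e t))^q (e^{t r} + e^{-t r})`. -/
theorem abs_rpow_le_exp (r q t : ℝ) (hq : 0 < q) (ht : 0 < t) :
    |r| ^ q ≤ (q / (Real.exp 1 * t)) ^ q * (Real.exp (t * r) + Real.exp (-(t * r))) := by
  have hu0 : 0 ≤ t * |r| / q := by positivity
  have h1 : t * |r| / q ≤ Real.exp (t * |r| / q - 1) := by
    have := Real.add_one_le_exp (t * |r| / q - 1)
    linarith
  have h2 : (t * |r| / q) ^ q ≤ Real.exp (t * |r| / q - 1) ^ q :=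
    Real.rpow_le_rpow hu0 h1 hq.le
  have h3 : Real.exp (t * |r| / q - 1) ^ q = Real.exp (t * |r|) * Real.exp (-q) := by
    rw [← Real.exp_mul, ← Real.exp_add]
    congr 1
    field_simp
    ring
  have h4 : |r| ^ q = (t * |r| / q) ^ q * (q / t) ^ q := by
    rw [← Real.mul_rpow hu0 (by positivity)]
    congr 1
    field_simp
  have h5 : (q / (Real.exp 1 * t)) ^ q = (q / t) ^ q * Real.exp (-q) := by
    have e : q / (Real.exp 1 * t) = (q / t) * Real.exp (-1) := by
      rw [Real.exp_neg]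
      field_simp
    rw [e, Real.mul_rpow (by positivity) (Real.exp_pos _).le, ← Real.exp_mul]
    congr 2
    ring
  have h6 : Real.exp (t * |r|) ≤ Real.exp (t * r) + Real.exp (-(t * r)) := by
    rcases abs_cases r with ⟨h, _⟩ | ⟨h, _⟩
    · rw [h]
      linarith [Real.exp_pos (-(t * r))]
    · rw [h]
      have e : t * -r = -(t * r) := by ring
      rw [e]
      linarith [Real.exp_pos (t * r)]
  have hqt : 0 ≤ (q / t) ^ q := by positivity
  calc |r| ^ q = (t * |r| / q) ^ q * (q / t) ^ q := h4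
    _ ≤ (Real.exp (t * |r|) * Real.exp (-q)) * (q / t) ^ q := by
        rw [← h3]
        exact mul_le_mul_of_nonneg_right h2 hqt
    _ = (q / t) ^ q * Real.exp (-q) * Real.exp (t * |r|) := by ring
    _ ≤ (q / t) ^ q * Real.exp (-q) * (Real.exp (t * r) + Real.exp (-(t * r))) := by
        apply mul_le_mul_of_nonneg_left h6
        positivity
    _ = (q / (Real.exp 1 * t)) ^ q * (Real.exp (t * r) + Real.exp (-(t * r))) := by rw [h5]

/-- Two-point Laplace transform bound on the cube, from `pl_cube`. -/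
theorem laplace_cube (K : ℕ) (L t Lam : ℝ) (hL : 0 < L) (ht : 0 < t)
    (h : (Fin K → Bool) → ℝ)
    (hlip : ∀ a b, |h a - h b| ≤ Lam * Real.sqrt (hammingDist a b)) :
    ∑ a, ∑ b, Real.exp (t * (h a - h b)) ≤
      4 ^ K * Real.exp (L ^ 2 * K / 4 + t ^ 2 * Lam ^ 2 / (4 * L)) := by
  have key := H53.pl_cube K L hL.le (fun b => t * h b)
    (fun a => t * h a - t ^ 2 * Lam ^ 2 / (4 * L)) (by
      intro a b
      have h1 := hlip a b
      have hx0 : 0 ≤ Real.sqrt (hammingDist a b) := Real.sqrt_nonneg _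
      have hx2 : Real.sqrt (hammingDist a b) ^ 2 = (hammingDist a b : ℝ) :=
        Real.sq_sqrt (Nat.cast_nonneg _)
      have h2 : t * (h a - h b) ≤ t * (Lam * Real.sqrt (hammingDist a b)) := by
        have h' : h a - h b ≤ Lam * Real.sqrt (hammingDist a b) := le_trans (le_abs_self _) h1
        exact mul_le_mul_of_nonneg_left h' ht.le
      have h3 : 0 ≤ (2 * L * Real.sqrt (hammingDist a b) - t * Lam) ^ 2 / (4 * L) := by
        positivity
      have h4 : (2 * L * Real.sqrt (hammingDist a b) - t * Lam) ^ 2 / (4 * L)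
          = L * Real.sqrt (hammingDist a b) ^ 2 - t * (Lam * Real.sqrt (hammingDist a b))
            + t ^ 2 * Lam ^ 2 / (4 * L) := by
        field_simp
        ring
      rw [hx2] at h4
      linarith)
  have e1 : ∑ a, Real.exp (t * h a - t ^ 2 * Lam ^ 2 / (4 * L))
      = (∑ a, Real.exp (t * h a)) * Real.exp (-(t ^ 2 * Lam ^ 2 / (4 * L))) := by
    rw [Finset.sum_mul]
    apply Finset.sum_congr rfl
    intro a _
    rw [← Real.exp_add]
    congr 1
  have e2 : ∑ a, ∑ b, Real.exp (t * (h a - h b))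
      = (∑ a, Real.exp (t * h a)) * (∑ b, Real.exp (-(t * h b))) := by
    rw [Finset.sum_mul_sum]
    apply Finset.sum_congr rfl
    intro a _
    apply Finset.sum_congr rfl
    intro b _
    rw [← Real.exp_add]
    congr 1
    ring
  beta_reduce at key
  rw [e1] at key
  have hc : Real.exp (-(t ^ 2 * Lam ^ 2 / (4 * L))) * Real.exp (t ^ 2 * Lam ^ 2 / (4 * L)) = 1 := by
    rw [← Real.exp_add]
    simp
  have hpos : 0 < Real.exp (t ^ 2 * Lam ^ 2 / (4 * L)) := Real.exp_pos _
  rw [e2, Real.exp_add]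
  calc (∑ a, Real.exp (t * h a)) * (∑ b, Real.exp (-(t * h b)))
      = ((∑ a, Real.exp (t * h a)) * Real.exp (-(t ^ 2 * Lam ^ 2 / (4 * L))) *
          (∑ b, Real.exp (-(t * h b)))) * Real.exp (t ^ 2 * Lam ^ 2 / (4 * L)) := by
        have e : (∑ a, Real.exp (t * h a)) * Real.exp (-(t ^ 2 * Lam ^ 2 / (4 * L))) *
            (∑ b, Real.exp (-(t * h b))) * Real.exp (t ^ 2 * Lam ^ 2 / (4 * L))
            = (∑ a, Real.exp (t * h a)) * (∑ b, Real.exp (-(t * h b))) *
              (Real.exp (-(t ^ 2 * Lam ^ 2 / (4 * L))) * Real.exp (t ^ 2 * Lam ^ 2 / (4 * L))) := by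
          ring
        rw [e, hc, mul_one]
    _ ≤ (4 ^ K * Real.exp (L ^ 2 * K / 4)) * Real.exp (t ^ 2 * Lam ^ 2 / (4 * L)) :=
        mul_le_mul_of_nonneg_right key hpos.le
    _ = 4 ^ K * (Real.exp (L ^ 2 * K / 4) * Real.exp (t ^ 2 * Lam ^ 2 / (4 * L))) := by ring

/-- Concentration of square-root-Hamming-Lipschitz functions on the cube (moment form). -/
theorem conc_cube (K : ℕ) (hK : 1 ≤ K) (q : ℝ) (hq : 2 ≤ q) (Lam : ℝ) (hLam : 0 ≤ Lam)
    (h : (Fin K → Bool) → ℝ)
    (hlip : ∀ a b, |h a - h b| ≤ Lam * Real.sqrt (hammingDist a b)) :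
    ∑ a, ∑ b, |h a - h b| ^ q ≤ 4 ^ K * 2 ^ (q + 2) * Lam ^ q * (q * K) ^ (q / 4) := by
  have hq0 : 0 < q := by linarith
  have hKr : (1 : ℝ) ≤ K := by exact_mod_cast hK
  have hK0 : (0 : ℝ) < K := by linarith
  rcases hLam.eq_or_lt with hz | hpos
  · have hconst : ∀ a b, |h a - h b| = 0 := by
      intro a b
      have h1 := hlip a b
      rw [← hz, zero_mul] at h1
      exact le_antisymm h1 (abs_nonneg _)
    have e : ∑ a, ∑ b, |h a - h b| ^ q = 0 := by
      apply Finset.sum_eq_zero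
      intro a _
      apply Finset.sum_eq_zero
      intro b _
      rw [hconst a b, Real.zero_rpow hq0.ne']
    rw [e]
    positivity
  · have hqK : 0 < q * K := by positivity
    have ha0pos' : 0 < Real.sqrt (q * K) := Real.sqrt_pos.mpr hqK
    have ha0sq' : Real.sqrt (q * K) ^ 2 = q * K := Real.sq_sqrt hqK.le
    obtain ⟨a0, ha0def⟩ : ∃ a0, a0 = Real.sqrt (q * K) := ⟨_, rfl⟩
    have ha0pos : 0 < a0 := by rw [ha0def]; exact ha0pos'
    have ha0sq : a0 ^ 2 = q * K := by rw [ha0def]; exact ha0sq'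
    have hspos' : 0 < Real.sqrt a0 := Real.sqrt_pos.mpr ha0pos
    have hssq' : Real.sqrt a0 ^ 2 = a0 := Real.sq_sqrt ha0pos.le
    obtain ⟨s, hsdef⟩ : ∃ s, s = Real.sqrt a0 := ⟨_, rfl⟩
    have hspos : 0 < s := by rw [hsdef]; exact hspos'
    have hssq : s ^ 2 = a0 := by rw [hsdef]; exact hssq'
    have hLpos : 0 < q / a0 := by positivity
    have htpos : 0 < q / (Lam * s) := by positivity
    have lap := laplace_cube K (q / a0) (q / (Lam * s)) Lam hLpos htpos h hlip
    have hL2 : (q / a0) ^ 2 * K / 4 = q / 4 := by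
      rw [div_pow, ha0sq]
      field_simp
    have ht2 : (q / (Lam * s)) ^ 2 * Lam ^ 2 / (4 * (q / a0)) = q / 4 := by
      rw [div_pow, mul_pow, hssq]
      field_simp
    have hexp : (q / a0) ^ 2 * K / 4 + (q / (Lam * s)) ^ 2 * Lam ^ 2 / (4 * (q / a0)) = q / 2 := by
      rw [hL2, ht2]
      ring
    rw [hexp] at lap
    have hw : q / (Real.exp 1 * (q / (Lam * s))) = Lam * s * Real.exp (-1) := by
      rw [Real.exp_neg]
      field_simp
    have hsq : s ^ q = (q * K) ^ (q / 4) := by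
      rw [hsdef, ha0def, Real.sqrt_eq_rpow, Real.sqrt_eq_rpow, ← Real.rpow_mul hqK.le,
        ← Real.rpow_mul hqK.le]
      congr 1
      ring
    have hwq : (q / (Real.exp 1 * (q / (Lam * s)))) ^ q
        = Lam ^ q * (q * K) ^ (q / 4) * Real.exp (-q) := by
      rw [hw, Real.mul_rpow (by positivity) (Real.exp_pos _).le,
        Real.mul_rpow hpos.le hspos.le, hsq, ← Real.exp_mul]
      congr 2
      ring
    have sym : ∑ a, ∑ b, Real.exp (-((q / (Lam * s)) * (h a - h b)))
        = ∑ a, ∑ b, Real.exp ((q / (Lam * s)) * (h a - h b)) := by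
      rw [Finset.sum_comm]
      apply Finset.sum_congr rfl
      intro b _
      apply Finset.sum_congr rfl
      intro a _
      congr 1
      ring
    have step : ∑ a, ∑ b, (q / (Real.exp 1 * (q / (Lam * s)))) ^ q *
          (Real.exp ((q / (Lam * s)) * (h a - h b)) + Real.exp (-((q / (Lam * s)) * (h a - h b))))
        = (q / (Real.exp 1 * (q / (Lam * s)))) ^ q *
          (∑ a, ∑ b, Real.exp ((q / (Lam * s)) * (h a - h b)) +
            ∑ a, ∑ b, Real.exp (-((q / (Lam * s)) * (h a - h b)))) := by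
      rw [← Finset.sum_add_distrib, Finset.mul_sum]
      apply Finset.sum_congr rfl
      intro a _
      rw [← Finset.sum_add_distrib, Finset.mul_sum]
    have hwnn : 0 ≤ (q / (Real.exp 1 * (q / (Lam * s)))) ^ q := by positivity
    have h2 : (2 : ℝ) ≤ 2 ^ (q + 2) := by
      calc (2 : ℝ) = 2 ^ (1 : ℝ) := (Real.rpow_one 2).symm
        _ ≤ 2 ^ (q + 2) := Real.rpow_le_rpow_of_exponent_le (by norm_num) (by linarith)
    have h3 : Real.exp (-q) * Real.exp (q / 2) ≤ 1 := by
      rw [← Real.exp_add, Real.exp_le_one_iff]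
      linarith
    have hA : 0 ≤ (4 : ℝ) ^ K * Lam ^ q * (q * K) ^ (q / 4) := by positivity
    calc ∑ a, ∑ b, |h a - h b| ^ q
        ≤ ∑ a, ∑ b, (q / (Real.exp 1 * (q / (Lam * s)))) ^ q *
          (Real.exp ((q / (Lam * s)) * (h a - h b)) + Real.exp (-((q / (Lam * s)) * (h a - h b)))) := by
          apply Finset.sum_le_sum
          intro a _
          apply Finset.sum_le_sum
          intro b _
          exact abs_rpow_le_exp _ q _ hq0 htpos
      _ = (q / (Real.exp 1 * (q / (Lam * s)))) ^ q *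
          (2 * ∑ a, ∑ b, Real.exp ((q / (Lam * s)) * (h a - h b))) := by
          rw [step, sym]
          ring
      _ ≤ (q / (Real.exp 1 * (q / (Lam * s)))) ^ q * (2 * (4 ^ K * Real.exp (q / 2))) := by
          apply mul_le_mul_of_nonneg_left _ hwnn
          linarith
      _ = 2 * ((4 : ℝ) ^ K * Lam ^ q * (q * K) ^ (q / 4)) * (Real.exp (-q) * Real.exp (q / 2)) := by
          rw [hwq]
          ring
      _ ≤ 2 * ((4 : ℝ) ^ K * Lam ^ q * (q * K) ^ (q / 4)) * 1 := by
          apply mul_le_mul_of_nonneg_left h3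
          positivity
      _ ≤ 2 ^ (q + 2) * ((4 : ℝ) ^ K * Lam ^ q * (q * K) ^ (q / 4)) := by
          rw [mul_one]
          exact mul_le_mul_of_nonneg_right h2 hA
      _ = 4 ^ K * 2 ^ (q + 2) * Lam ^ q * (q * K) ^ (q / 4) := by ring

end Vale.Agent.Lib.P249.H25
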