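import Mathlib

/-!
# Grid lower bound for P249: shared definitions (helper25)

Blocks of bits, block sums and Rademacher sums used by the grid lower bound
`d ≥ c_p K^(p/2) / D^p` for arbitrary maps.
-/

namespace Vale.Agent.Lib.P249.Grid

/-- Sign of a bit: `false ↦ 1`, `true ↦ -1`. -/
def sg (b : Bool) : ℝ := if b then -1 else 1

/-- Sum of the signs of a block of `M` bits. -/
def blockSum (M : ℕ) (a : Fin M → Bool) : ℝ := ∑ j, sg (a j)

/-- Squared Euclidean distance between the vectors of block sums. -/
def rho2 (K M : ℕ) (a b : Fin K → Fin M → Bool) : ℝ :=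
  ∑ i, (blockSum M (a i) - blockSum M (b i)) ^ 2

/-- Rademacher sum with coefficients `c` at the sign pattern `e`. -/
def rad (K : ℕ) (c : Fin K → ℝ) (e : Fin K → Bool) : ℝ := ∑ i, c i * sg (e i)

end Vale.Agent.Lib.P249.Grid
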