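import Vale.Agent.Lib.P249.helper25.GridDefs

/-!
# Grid lower bound for P249: the point set (helper25)

`cnt K M a` is the grid point (number of true bits in each block) of a bit array `a`;
`gridPt K M v` is the point of `l_p` (coordinates indexed by sign patterns) attached to
the grid point `v`.
-/

namespace Vale.Agent.Lib.P249.Grid

/-- Number of true bits in each block, as a point of the grid `{0..M}^K`. -/
def cnt (K M : ℕ) (a : Fin K → Fin M → Bool) : Fin K → Fin (M + 1) :=
  fun i => ⟨(Finset.univ.filter (fun j => a i j = true)).card, by
    have := Finset.card_le_univ (Finset.univ.filter (fun j => a i j = true))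
    simp only [Fintype.card_fin] at this
    omega⟩

/-- The point attached to the grid point `v`: the Rademacher sum with coefficients
`M - 2 v i`. -/
def gridPt (K M : ℕ) (v : Fin K → Fin (M + 1)) (e : Fin K → Bool) : ℝ :=
  rad K (fun i => (M : ℝ) - 2 * ((v i : ℕ) : ℝ)) e

end Vale.Agent.Lib.P249.Grid
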